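import Vale.Agent.P283R.Hw.Fin
import Vale.Agent.P283R.Ws.Nrm

/-!
# P283R, block HW: the end
-/

namespace Vale.Agent.P283R.Hw

/-- **HG** -/
theorem hg : Bh.HG := hg_of Ws.nrm

theorem hzd : Cy.HZD := Hb.hzd_of hg

end Vale.Agent.P283R.Hw
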