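import Vale.Agent.P283R.Hw.St
import Vale.Agent.P283R.Cx.Lar
import Vale.Agent.P283R.Cx.Gp
import Vale.Agent.P283R.Cx.Gav

/-!
# P283R, block HW: the Jacobian of a homogeneous frame is homogeneous
-/

open Set
open Vale.Agent.P285N.Brep (jac Fr)

noncomputable section

namespace Vale.Agent.P283R.Hw

open Vale.Agent.P287D Vale.Agent.P297Z Vale.Agent.P283R.Cx Vale.Agent.P283R.Cy
open Vale.Agent.P283R.To (mon mon_ne der_mon)

variable {K F : Type} [Field K] [Algebra ℂ K] [Field F] [Algebra ℂ F] [Algebra K F]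
  [IsScalarTower ℂ K F] {d k N : ℕ} {y : Fin d → K} {t : Fin k → F}

theorem jac_hm (x : Ext K d t) (hy : Frm y) {E : Fin (d + k) → Derivation ℂ F F}
    (hE : Fr (zt y t) E) (φ : Fin (d + k) → K) (β : Fin (d + k) → Fin k → ℤ) :
    ∃ ψ : K, jac E (fun i => hm t (φ i) (β i)) * ∏ i, t i = hm t ψ (∑ i, β i) := by
  obtain ⟨E₀, h₀⟩ := hy
  have t0 := x.ind.ne_zero
  have h1 : ∀ l (a : K), E (Fin.castAdd k l) (algebraMap K F a) = algebraMap K F (E₀ l a) :=
    fun l a => by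
      have e := Cb.expand ((Cb.dr_of (E (Fin.castAdd k l))).comp (algebraMap K F))
        (fun c => by simp only [Gp.hc]; exact (E _).map_algebraMap c) h₀ a
      refine e.trans ((Finset.sum_eq_single l (fun j _ hj => ?_) (by simp)).trans ?_)
      · have := hE.dual (Fin.castAdd k l) (Fin.castAdd k j)
        rw [if_neg (fun h => hj (Fin.castAdd_injective _ _ h).symm), zt, Fin.append_left] at this
        rw [this, zero_mul]
      · have := hE.dual (Fin.castAdd k l) (Fin.castAdd k l)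
        rw [if_pos rfl, zt, Fin.append_left] at this
        rw [this, one_mul]; rfl
  have h2 : ∀ l j, E (Fin.castAdd k l) (t j) = 0 := fun l j => by
    have := hE.dual (Fin.castAdd k l) (Fin.natAdd d j)
    rwa [if_neg (fun h => by have := congrArg Fin.val h; simp at this; omega), zt,
      Fin.append_right] at this
  let A : Matrix (Fin (d + k)) (Fin (d + k)) K := Matrix.of fun i j =>
    Fin.append (fun l => E₀ l (φ j)) (fun l => (β j l : K) * φ j) i
  refine ⟨A.det, ?_⟩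
  have e1 : ∏ i, t i = ∏ i, Fin.append (fun _ : Fin d => (1 : F)) t i := by
    simp [Fin.prod_univ_add]
  have e2 : mon t (∑ i, β i) = ∏ i, mon t (β i) := by
    simpa using mon_sum t0 β fun _ => 1
  rw [e1, mul_comm, jac, ← Matrix.det_mul_column, hm, e2, mul_comm, RingHom.map_det,
    ← Matrix.det_mul_row]
  congr 1
  ext i j
  refine Fin.addCases (fun l => ?_) (fun l => ?_) i
  · simp [A, hm, h1, h2, der_mon _ t0]
  · have := (Gp.eul x.ff ((Cb.jac_ne_iff h₀ y).1 (Cb.jac_ne h₀ h₀)) t0 hE l).2 (φ j) (β j)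
    simp only [A, hm, Matrix.of_apply, Fin.append_right, RingHom.mapMatrix_apply, Matrix.map_apply,
      this, map_mul, map_intCast, Algebra.smul_def]
    ring

/-- the canonical divisor of a homogeneous frame -/
theorem hj (x : Ext K d t) (hy : Frm y) {φ : Fin (d + k) → K} {β : Fin (d + k) → Fin k → ℤ}
    (h : AlgebraicIndependent ℂ fun i => hm t (φ i) (β i)) : ∃ ψ : K, ψ ≠ 0 ∧ ∀ R : Pl F,
      1 + kap (fun i => hm t (φ i) (β i)) R = lt y t R + R.ord (hm t ψ (∑ i, β i)) := by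
  obtain ⟨E, hE⟩ := zt_frm x hy
  obtain ⟨ψ, e⟩ := jac_hm x hy hE φ β
  have t0 := x.ind.ne_zero
  have j0 := (Cb.jac_ne_iff hE _).2 h
  have p0 : ∏ i, t i ≠ 0 := Finset.prod_ne_zero_iff.2 fun i _ => t0 i
  refine ⟨ψ, fun h0 => mul_ne_zero j0 p0 (by rw [e, h0, hm_zero]), fun R => ?_⟩
  rw [← e, Cb.kap_chg hE j0, Pi.add_apply, dv_apply, Pl.ord_mul _ j0 p0, To.ord_prod R t0, lt]
  push_cast
  ring

/-- **JAC** -/
theorem jac' : JAC := fun _ _ _ _ _ _ _ _ _ _ _ _ x hy _ _ _ ⟨_, h⟩ =>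
  hj x hy ((Cb.jac_ne_iff h _).1 (Cb.jac_ne h h))

/-- **KPW** -/
theorem kpw : KPW := fun F _ _ m W σ v hF h0 hm hi => by
  have e : (fun i => (finSuccEquiv m i).elim σ v) = (Fin.cons σ v : Fin (m + 1) → F) :=
    funext fun i => Fin.cases (by simp) (fun i => by simp) i
  have t0 : σ ≠ 0 := fun h => by simp [h] at h0
  refine ⟨Cb.fr_of hF (e ▸ (AlgebraicIndependent.option_iff.2 ⟨Cb.ind_of_rd hm hi,
    Cb.trans_of_mx hm hi t0 (Cb.mx_iff.2 (.inr h0))⟩).comp _ (finSuccEquiv m).injective), ?_⟩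
  rw [← e, add_comm]
  exact To.kap_ram hF _ h0 hm hi

/-- some monomial has a smaller order -/
theorem exists_mon {s : Fin N → K} {a : Fin N → Fin k → ℤ} {e : Fin k → ℤ} {φ : K}
    (h : φ ∈ Sp s a e) (h0 : φ ≠ 0) (W : Pl F) : ∃ c, dg a c = e ∧
      W.ord (algebraMap K F (∏ j, s j ^ c j)) ≤ W.ord (algebraMap K F φ) := by
  by_contra! hn
  have : Sp s a e ≤ (W.sub (-(W.ord (algebraMap K F φ) + 1 : ℤ))).comap
      (IsScalarTower.toAlgHom ℂ K F).toLinearMap := Submodule.span_le.2 (by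
    rintro _ ⟨c, hc, rfl⟩
    refine .inr ?_
    have : W.ord (algebraMap K F φ) + 1 ≤ W.ord (algebraMap K F (∏ j, s j ^ c j)) := hn c hc
    exact sub_nonneg.2 (Int.cast_le.2 this))
  rcases this h with h | h
  · exact h0 ((map_eq_zero (algebraMap K F)).1 h)
  · have h : (0 : ℝ) ≤ W.ord (algebraMap K F φ) + -((W.ord (algebraMap K F φ) + 1 : ℤ) : ℝ) := h
    push_cast at h
    linarith

omit [IsScalarTower ℂ K F] [Algebra ℂ K] in
theorem ord_dn {t : Fin (k + 1) → F} (t0 : ∀ i, t i ≠ 0) (W : Pl F) {φ : K} (h : φ ≠ 0)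
    (e : Fin k → ℤ) (m : ℤ) : W.ord (hm t φ (dn e m)) = W.ord (algebraMap K F φ) +
      ∑ i, e i * W.ord (t i.castSucc) + m * W.ord (t (Fin.last k)) := by
  rw [ord_hm t0 W h, Fin.sum_univ_castSucc, add_assoc]
  simp [dn]

/-- the log discrepancy of a place of the Rees ring -/
theorem ldw {t : Fin (k + 1) → F} {T : Set (Pl K)} {D : Pl K → Fin k → ℤ} {s : Fin N → K}
    {a : Fin N → Fin k → ℤ} {h₀ : K} {e₀ : Fin k → ℤ} (x : Ext K d t) (hy : Frm y)
    (cx : Cox T D s a) (E : Eqv T D (kap y) h₀ e₀) (n : Fin N → ℤ) (W : Pl F)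
    (hW : ∀ b ∈ R0 s a n t, b ∈ W.ring) (h0 : 0 < W.ord (t (Fin.last k)))
    (A : Fin (d + k) → Fin N) (hA : AlgebraicIndependent ℂ fun i =>
      W.rd (hm t (s (A i)) (dn (a (A i)) (-n (A i))))) :
    ∃ c : Fin N → ℕ, dg a c = ∑ i, a (A i) + e₀ ∧ lt y t W - W.ord (hm t h₀ (dn e₀ 0)) ≤
      W.ord (t (Fin.last k)) * (∑ i, n (A i) - ∑ j, c j * n j : ℤ) := by
  have t0 := x.ind.ne_zero
  have um : ∀ j, hm t (s j) (dn (a j) (-n j)) ∈ W.ring := fun j => hW _ (by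
    simpa [sn, an, R0] using gen_mem (sn s) (an a n) t j.castSucc)
  obtain ⟨⟨_, fr⟩, kp⟩ := kpw F (d + k) W _ _ x.ff' h0 (fun i => um (A i)) hA
  let φ : Fin (d + (k + 1)) → K := Fin.cons 1 fun i => s (A i)
  let β : Fin (d + (k + 1)) → Fin (k + 1) → ℤ :=
    Fin.cons (dn 0 1) fun i => dn (a (A i)) (-n (A i))
  have e1 : (fun i => hm t (φ i) (β i)) = (Fin.cons (t (Fin.last k)) fun i =>
      hm t (s (A i)) (dn (a (A i)) (-n (A i))) : Fin (d + k + 1) → F) :=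
    funext fun i => Fin.cases (by simp [φ, β, hm, mon, dn, Fin.prod_univ_castSucc])
      (fun i => rfl) i
  have e2 : ∑ i, β i = dn (∑ i, a (A i)) (1 - ∑ i, n (A i)) := by
    refine (Fin.sum_univ_succ (n := d + k) β).trans (funext fun i => ?_)
    refine Fin.lastCases ?_ (fun i => ?_) i <;> simp [β, dn, Finset.sum_apply, sub_eq_add_neg]
  obtain ⟨ψ, ψ0, hψ⟩ := hj x hy (φ := φ) (β := β)
    (e1 ▸ (Cb.jac_ne_iff fr _).1 (Cb.jac_ne fr fr))
  have p0 := mul_ne_zero ψ0 E.1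
  have mem : ψ * h₀ ∈ Sp s a (∑ i, a (A i) + e₀) := (cx.sec _ _ p0).2 fun P hP => by
    obtain ⟨v, hv⟩ := gav K F d (k + 1) y t x hy P (dn (D P) 0)
    have dd : ∀ e m, dn e m ⬝ᵥ dn (D P) 0 = e ⬝ᵥ D P := fun e m => by
      simp [dotProduct, dn, Fin.sum_univ_castSucc]
    have k1 := hψ v
    have k2 : 0 ≤ kap (fun i => hm t (φ i) (β i)) v := Cb.kap_nonneg x.ff' fun i =>
      Cb.mem_ord (Fin.cases ((hv.ord 1 (dn 0 1) one_ne_zero).ge.trans' (by simp [dd]))
        (fun i => (hv.ord _ (dn (a (A i)) (-n (A i))) (cx.ne (A i))).ge.trans'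
          ((Cxj.dv_nn cx hP (A i)).trans_eq (congrArg _ (dd _ _).symm))) i)
    rw [hv.lt, hv.ord _ _ ψ0, e2, dd, E.2 P hP] at k1
    rw [Pl.ord_mul _ ψ0 E.1, add_dotProduct, ← Int.cast_nonneg_iff (R := ℝ)]
    push_cast at k1 ⊢
    linarith
  obtain ⟨c, c1, c2⟩ := exists_mon mem p0 W
  refine ⟨c, c1, ?_⟩
  have k1 := hψ W
  rw [e1, kp, e2, ord_dn t0 W ψ0] at k1
  have k2 : 0 ≤ ∑ j, c j * W.ord (hm t (s j) (dn (a j) (-n j))) :=
    Finset.sum_nonneg fun j _ => mul_nonneg (Int.natCast_nonneg _) (Pl.ord_nonneg_of_mem _ (um j))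
  have k3 : ∑ j, c j * ∑ i, a j i * W.ord (t i.castSucc) =
      ∑ i, (∑ i, a (A i) + e₀) i * W.ord (t i.castSucc) := by
    simp only [← c1, dg, Finset.mul_sum, Finset.sum_mul, mul_assoc]
    exact Finset.sum_comm
  rw [← mon_nat, To.map_mon, To.ord_mon W fun j => (map_ne_zero _).2 (cx.ne j), map_mul,
    Pl.ord_mul _ ((map_ne_zero _).2 ψ0) ((map_ne_zero _).2 E.1)] at c2
  simp only [ord_dn t0 W (cx.ne _), mul_add, Finset.sum_add_distrib, k3, Pi.add_apply, add_mul,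
    ← mul_assoc, ← Finset.sum_mul, mul_neg, Finset.sum_neg_distrib] at k2
  have k4 := k2.trans (add_le_add_left (add_le_add_left c2 _) _)
  rw [← Int.cast_nonneg_iff (R := ℝ)] at k4
  rw [ord_dn t0 W E.1]
  push_cast at k1 k4 ⊢
  linarith

end Vale.Agent.P283R.Hw
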