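import Vale.Agent.P283R.Hw.St
import Vale.Agent.P283R.Tp.Hrt
import Vale.Agent.P287D.On.Div

/-!
# P283R, block HW: places at which enough generators have independent residues
-/

open Set

noncomputable section

namespace Vale.Agent.P283R.Hw

open Vale.Agent.P287D Vale.Agent.P297Z

variable {F : Type} [Field F] [Algebra ℂ F] {m N : ℕ} {x : Fin N → F} {W : Pl F}

theorem rd_adj (hW : ∀ b ∈ Algebra.adjoin ℂ (range x), b ∈ W.ring) {b : F}
    (hb : b ∈ Algebra.adjoin ℂ (range x)) :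
    W.rd b ∈ IntermediateField.adjoin ℂ (range fun j => W.rd (x j)) := by
  induction hb using Algebra.adjoin_induction with
  | mem z hz =>
    obtain ⟨j, rfl⟩ := hz
    exact IntermediateField.subset_adjoin _ _ ⟨j, rfl⟩
  | algebraMap c => rw [Cb.rd_const]; exact IntermediateField.algebraMap_mem _ c
  | add a b ha hb h k => rw [Cb.rd_add (hW a ha) (hW b hb)]; exact add_mem h k
  | mul a b ha hb h k => rw [Cb.rd_mul (hW a ha) (hW b hb)]; exact mul_mem h k

theorem ind_of (h : FF F (m + 1)) (hW : ∀ b ∈ Algebra.adjoin ℂ (range x), b ∈ W.ring)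
    (ha : Algebra.IsAlgebraic (On.img W (Algebra.adjoin ℂ (range x))) W.κ) :
    ∃ A : Fin m → Fin N, AlgebraicIndependent ℂ fun i => W.rd (x (A i)) := by
  have le : On.img W (Algebra.adjoin ℂ (range x)) ≤
      IntermediateField.adjoin ℂ (range fun j => W.rd (x j)) :=
    IntermediateField.adjoin_le_iff.2 (by rintro _ ⟨b, hb, rfl⟩; exact rd_adj hW hb)
  have k : Algebra.IsAlgebraic (IntermediateField.adjoin ℂ (range fun j => W.rd (x j))) W.κ :=
    ⟨fun z => On.alg_mono Subtype.val_injective Subtype.val_injective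
      (fun r => ⟨⟨r, le r.2⟩, rfl⟩) (ha.1 z)⟩
  have := IntermediateField.isAlgebraic_adjoin_iff_top.1 k
  obtain ⟨s, hs, hb⟩ := exists_isTranscendenceBasis_subset (R := ℂ) (range fun j => W.rd (x j))
  have e : Cardinal.mk (Fin m) = Cardinal.mk s := by
    rw [hb.cardinalMk_eq_trdeg, Cb.trdeg_κ h, Cardinal.mk_fin]
  obtain ⟨g⟩ := Cardinal.eq.1 e
  choose j hj using fun i => hs (g i).2
  refine ⟨j, ?_⟩
  have : (fun i => W.rd (x (j i))) = Subtype.val ∘ g := funext hj
  rw [this]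
  exact hb.1.comp g g.injective

theorem img_top {S : Subalgebra ℂ F} (h : PD S W) : On.img W S = ⊤ := by
  obtain ⟨q, c, l⟩ := h
  refine eq_top_iff.2 fun z _ => ?_
  obtain ⟨a, ha⟩ := IsLocalRing.residue_surjective (R := W.ring) z
  have ha' : W.rd a = z := (Cb.rd_of a.2).trans ha
  obtain ⟨s, t, ht, e⟩ := l a a.2
  have t0 : W.rd t ≠ 0 := fun k => ht ((c t).2.2 k)
  have : W.rd a * W.rd t = W.rd s := by
    rw [← Cb.rd_mul a.2 (c t).1, e, div_mul_cancel₀ _ (Hr.ne_of_notMem ht)]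
  rw [← ha', ← eq_div_iff t0] at *
  rw [this]
  exact div_mem (On.mem_img W s.2) (On.mem_img W t.2)

/-- **EXW** -/
theorem exw : EXW := fun F _ _ m N x h => by
  refine ⟨fun W hW => ind_of h.ff (fun b hb => (hW.choose_spec.1 ⟨b, hb⟩).1) ?_,
    fun σ hσ σ0 hi => ?_⟩
  · rw [img_top hW]
    exact ⟨fun z => isAlgebraic_algebraMap (⟨z, trivial⟩ : (⊤ : IntermediateField ℂ W.κ))⟩
  · have := h.isFrac
    obtain ⟨W, h1, h2, h3⟩ := On.div_alg h.ff h.fg
      (IsLocalization.isAlgebraic F (nonZeroDivisors _)) hσ σ0 hi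
    exact ⟨W, fun j => h1 _ (Algebra.subset_adjoin ⟨j, rfl⟩), h2, ind_of h.ff h1 h3⟩

end Vale.Agent.P283R.Hw
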