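import Vale.Agent.P283R.Hw.St
import Vale.Agent.P283R.Cx.Bas

/-!
# P283R, block HW: the Rees ring is an affine model
-/

open Set

noncomputable section

namespace Vale.Agent.P283R.Hw

open Vale.Agent.P287D Vale.Agent.P283R.Cx
open Vale.Agent.P283R.To (mon mon_add mon_ne)

namespace A0

variable {K F : Type} [Field K] [Field F] [Algebra K F] {k N : ℕ}

theorem hm_dn (t : Fin (k + 1) → F) (φ : K) (e : Fin k → ℤ) (m : ℤ) :
    hm t φ (dn e m) = hm (fun i => t i.castSucc) φ e * t (Fin.last k) ^ m := by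
  simp [hm, mon, dn, Fin.prod_univ_castSucc, mul_assoc]

variable [Algebra ℂ K] [Algebra ℂ F]

omit [Algebra ℂ K] in
theorem gen_mem' (s : Fin N → K) (a : Fin N → Fin k → ℤ) (n : Fin N → ℤ) (t : Fin (k + 1) → F)
    (j : Fin N) : hm t (s j) (dn (a j) (-n j)) ∈ R0 s a n t := by
  simpa [sn, an, R0] using gen_mem (sn s) (an a n) t j.castSucc

omit [Algebra ℂ K] in
theorem last_mem (s : Fin N → K) (a : Fin N → Fin k → ℤ) (n : Fin N → ℤ) (t : Fin (k + 1) → F) :
    t (Fin.last k) ∈ R0 s a n t := by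
  have := gen_mem (sn s) (an a n) t (Fin.last N)
  simpa [sn, an, R0, hm_dn, hm_one] using this

variable [IsScalarTower ℂ K F]

/-- a field which contains the ring of the sections contains `K` and `t` -/
theorem sub_of {t : Fin k → F} (ht : ∀ i, t i ≠ 0) {T : Set (Pl K)} {D : Pl K → Fin k → ℤ}
    {s : Fin N → K} {a : Fin N → Fin k → ℤ} (hc : Cox T D s a) {L : Subfield F}
    (sub : ∀ z ∈ Rg s a t, z ∈ L) : (∀ φ : K, algebraMap K F φ ∈ L) ∧ ∀ i, t i ∈ L := by
  have hK : ∀ φ : K, algebraMap K F φ ∈ L := fun φ => by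
    obtain ⟨e, b, hb, c, hc', c0, rfl⟩ := hc.fr0 φ
    have : algebraMap K F (b / c) = hm t b e / hm t c e := by
      rw [hm, hm, mul_div_mul_right _ _ (mon_ne ht e), map_div₀]
    rw [this]
    exact div_mem (sub _ (mem_Rg ht hb)) (sub _ (mem_Rg ht hc'))
  refine ⟨hK, fun i => ?_⟩
  obtain ⟨e, b, hb, c, hc', b0, c0⟩ := hc.fr1 (Pi.single i 1)
  have m : mon t (Pi.single i 1) = t i := by simpa [hm] using hm_single (K := K) t i
  have : t i = hm t b (Pi.single i 1 + e) / hm t c e * algebraMap K F (c / b) := by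
    have b1 : algebraMap K F b ≠ 0 := (map_ne_zero _).2 b0
    have c1 : algebraMap K F c ≠ 0 := (map_ne_zero _).2 c0
    have := mon_ne ht e
    rw [hm, hm, mon_add ht, m, map_div₀]
    field_simp
  rw [this]
  exact mul_mem (div_mem (sub _ (mem_Rg ht hb)) (sub _ (mem_Rg ht hc'))) (hK _)

end A0

open A0

/-- **AF0** -/
theorem af0 : AF0 := by
  intro K F _ _ _ _ _ _ d k N t T D s a n h hc
  have ht := h.ind.ne_zero
  refine ⟨h.ff', Subalgebra.fg_def.2 ⟨_, finite_range _, rfl⟩, fun x => ?_⟩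
  let L := Subfield.closure (R0 s a n t : Set F)
  have sub : ∀ z ∈ R0 s a n t, z ∈ L := fun z hz => Subfield.subset_closure hz
  have h0 := sub _ (last_mem s a n t)
  obtain ⟨hK, h1⟩ := sub_of (t := fun i => t i.castSucc) (fun i => ht _) hc (L := L) fun z hz => by
    induction hz using Algebra.adjoin_induction with
    | mem z hz =>
      obtain ⟨j, rfl⟩ := hz
      have := mul_mem (sub _ (gen_mem' s a n t j)) (zpow_mem h0 (n j))
      rwa [hm_dn, mul_assoc, ← zpow_add₀ (ht _), neg_add_cancel, zpow_zero, mul_one] at this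
    | algebraMap c => exact sub _ (Subalgebra.algebraMap_mem _ c)
    | add a b _ _ ha hb => exact add_mem ha hb
    | mul a b _ _ ha hb => exact mul_mem ha hb
  have hx : x ∈ L := by
    have : x ∈ IntermediateField.adjoin K (range t) := h.gen ▸ IntermediateField.mem_top
    refine (IntermediateField.adjoin_le_iff (T := L.toIntermediateField hK)).2 ?_ this
    rintro _ ⟨i, rfl⟩
    induction i using Fin.lastCases with
    | last => exact h0
    | cast i => exact h1 i
  obtain ⟨b, hb, c, hc', rfl⟩ := Subfield.mem_closure_iff.1 hx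
  have e : Subring.closure (R0 s a n t : Set F) = (R0 s a n t).toSubring :=
    Subring.closure_eq (R0 s a n t).toSubring
  rw [e] at hb hc'
  exact ⟨⟨b, hb⟩, ⟨c, hc'⟩, rfl⟩

end Vale.Agent.P283R.Hw
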