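import Vale.Agent.P283R.Hw.Hj
import Vale.Agent.P283R.Hw.Exw

/-!
# P283R, block HW: the Rees ring, degrees and orders
-/

open Set

noncomputable section

namespace Vale.Agent.P283R.Hw

open Vale.Agent.P287D Vale.Agent.P283R.Cx Vale.Agent.P283R.Cy Vale.Agent.P297Z
open Vale.Agent.P283R.To (mon mon_ne)

variable {K F : Type} [Field K] [Algebra ℂ K] [Field F] [Algebra ℂ F] [Algebra K F] {d k N q : ℕ}
  {t : Fin (k + 1) → F} {s : Fin N → K} {a : Fin N → Fin k → ℤ} {n : Fin N → ℤ} {ξ : Fin k → ℝ}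

theorem pa_dn (e : Fin k → ℤ) (m : ℤ) (x : Fin (k + 1) → ℝ) :
    pa (dn e m) x = (pa e fun i => x i.castSucc) + m * x (Fin.last k) := by
  simp [pa, dn, Fin.sum_univ_castSucc]

theorem dn_inj {e e' : Fin k → ℤ} {m m' : ℤ} (h : dn e m = dn e' m') : e = e' ∧ m = m' :=
  ⟨funext fun i => by simpa [dn] using congrFun h i.castSucc,
    by simpa [dn] using congrFun h (Fin.last k)⟩

theorem dg_an (a : Fin N → Fin k → ℤ) (n : Fin N → ℤ) (c : Fin (N + 1) → ℕ) : dg (an a n) c =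
    dn (dg a fun j => c j.castSucc) (c (Fin.last N) - ∑ j : Fin N, c j.castSucc * n j) := by
  funext i
  refine Fin.lastCases ?_ (fun i => ?_) i
  · simp [dg, an, dn, Fin.sum_univ_castSucc]
    ring
  · simp [dg, an, dn, Fin.sum_univ_castSucc]

omit [Algebra ℂ K] in
theorem prod_sn (s : Fin N → K) (c : Fin (N + 1) → ℕ) :
    ∏ j, sn s j ^ c j = ∏ j : Fin N, s j ^ c j.castSucc := by
  simp [sn, Fin.prod_univ_castSucc]

omit [Algebra ℂ K] in
theorem ord_dr (t0 : ∀ i, t i ≠ 0) (W : Pl F) {φ : K} (φ0 : φ ≠ 0) (e : Fin k → ℤ) (m : ℤ) :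
    (W.ord (hm t φ (dn e m)) : ℝ) = W.ord (algebraMap K F φ) +
      (pa e fun i => W.ord (t i.castSucc)) + m * W.ord (t (Fin.last k)) := by
  rw [ord_hm t0 W φ0, add_assoc, ← pa_dn e m fun i => (W.ord (t i) : ℝ), pa]
  push_cast
  rfl

omit [Algebra ℂ K] [Algebra ℂ F] in
theorem hm_sig (t : Fin (k + 1) → F) (m : ℤ) : hm t (1 : K) (dn 0 m) = t (Fin.last k) ^ m := by
  simp [hm, mon, dn, Fin.prod_univ_castSucc]

omit [Algebra ℂ K] in
theorem sig_mem (s : Fin N → K) (a : Fin N → Fin k → ℤ) (n : Fin N → ℤ) (t : Fin (k + 1) → F) :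
    t (Fin.last k) ∈ R0 s a n t := by
  have := gen_mem (sn s) (an a n) t (Fin.last N)
  rwa [sn, an, Fin.snoc_last, Fin.snoc_last, hm_sig, zpow_one] at this

theorem pa_ze (a : Fin N → Fin k → ℤ) (ξ : Fin k → ℝ) (n v : Fin N → ℤ) :
    pa v (ze a ξ n) = pa (dz a v) ξ + (∑ j, v j * n j : ℤ) := by
  have : dz a v = ∑ j, v j • a j := Fintype.linearCombination_apply ..
  rw [this, Tpb.pa_sum, pa]
  push_cast
  rw [← Finset.sum_add_distrib]
  exact Finset.sum_congr rfl fun j _ => mul_add _ _ _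

omit [Algebra K F] in
/-- a section has a monomial of at most the same order -/
theorem ex_mon (ι : K →ₐ[ℂ] F) (W : Pl F) {e : Fin k → ℤ} {φ : K}
    (h : φ ∈ Sp s a e) (φ0 : φ ≠ 0) :
    ∃ c, dg a c = e ∧ W.ord (ι (∏ j, s j ^ c j)) ≤ W.ord (ι φ) := by
  by_contra H
  have : Sp s a e ≤ (W.sub (-(W.ord (ι φ) + 1 : ℤ))).comap ι.toLinearMap := Submodule.span_le.2 (by
    rintro _ ⟨c, hc, rfl⟩
    have : W.ord (ι φ) < W.ord (ι (∏ j, s j ^ c j)) := not_le.1 fun k => H ⟨c, hc, k⟩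
    refine Or.inr ?_
    rw [← Int.cast_neg, ← Int.cast_add, Int.cast_nonneg_iff]
    exact (by omega : 0 ≤ W.ord (ι (∏ j, s j ^ c j)) + -(W.ord (ι φ) + 1)))
  have k := (this h).resolve_left ((map_ne_zero ι).2 φ0)
  rw [← Int.cast_neg, ← Int.cast_add, Int.cast_nonneg_iff] at k
  have k' : 0 ≤ W.ord (ι φ) + -(W.ord (ι φ) + 1) := k
  omega

variable [IsScalarTower ℂ K F]

theorem mon_R0 (t0 : ∀ i, t i ≠ 0) (s : Fin N → K) (a : Fin N → Fin k → ℤ) (n : Fin N → ℤ)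
    (c : Fin N → ℕ) : hm t (∏ j, s j ^ c j) (dn (dg a c) (-∑ j, c j * n j)) ∈ R0 s a n t := by
  have := mem_Rg t0 (mon_mem (sn s) (an a n) (Fin.snoc c 0))
  rw [dg_an, prod_sn] at this
  simp only [Fin.snoc_castSucc, Fin.snoc_last, Nat.cast_zero, zero_sub] at this
  exact this

theorem hom_mem {k N : ℕ} {t : Fin k → F} {s : Fin N → K} {a : Fin N → Fin k → ℤ}
    (ht : AlgebraicIndependent K t) {φ : K} {e : Fin k → ℤ} (h : hm t φ e ∈ Rg s a t) :
    φ ∈ Sp s a e := by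
  obtain ⟨ψ, h1, h2⟩ := (mem_Rg_iff ht.ne_zero).1 h
  have := lv_inj ht (ψ := ψ + Finsupp.single e (-φ)) (by
    rw [lv_add, h2, lv_single, ← hm_add, add_neg_cancel, hm_zero])
  have := DFunLike.congr_fun this e
  rw [Finsupp.add_apply, Finsupp.single_eq_same, Finsupp.zero_apply, add_neg_eq_zero] at this
  exact this ▸ h1 e

/-- the homogeneous elements of the Rees ring -/
theorem R0_mon (ht : AlgebraicIndependent K t) (Q : Pl K) {φ : K} (φ0 : φ ≠ 0) {e : Fin k → ℤ}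
    {m : ℤ} (h : hm t φ (dn e (-m)) ∈ R0 s a n t) :
    ∃ c, dg a c = e ∧ m ≤ ∑ j, c j * n j ∧ Q.ord (∏ j, s j ^ c j) ≤ Q.ord φ := by
  obtain ⟨c, c1, c2⟩ := ex_mon (AlgHom.id ℂ K) Q (hom_mem ht h) φ0
  rw [dg_an] at c1
  rw [prod_sn] at c2
  obtain ⟨c3, c4⟩ := dn_inj c1
  exact ⟨_, c3, by omega, c2⟩

theorem sig_inv (ht : AlgebraicIndependent K t) (h : ∀ c, dg a c = 0 → ∑ j, c j * n j ≤ 0) :
    (t (Fin.last k))⁻¹ ∉ R0 s a n t := fun H => by
  rw [← zpow_neg_one, ← hm_sig (K := K)] at H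
  obtain ⟨c, c1⟩ := Hl.exists_dg (hom_mem ht H) one_ne_zero
  rw [dg_an] at c1
  obtain ⟨c3, c4⟩ := dn_inj c1
  have := h _ c3
  omega

/-- the weights of a place -/
def xw (t : Fin (k + 1) → F) (ξ : Fin k → ℝ) (W : Pl F) (i : Fin k) : ℝ :=
  W.ord (t i.castSucc) + W.ord (t (Fin.last k)) * ξ i

omit [IsScalarTower ℂ K F] in
theorem pa_xw (e : Fin k → ℤ) (W : Pl F) : pa e (xw t ξ W) =
    (pa e fun i => W.ord (t i.castSucc)) + W.ord (t (Fin.last k)) * pa e ξ := by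
  simp only [pa, xw, mul_add, Finset.sum_add_distrib, Finset.mul_sum, mul_left_comm]

/-- the log discrepancy, corrected by the weights -/
def Lw (q : ℕ) (y : Fin d → K) (t : Fin (k + 1) → F) (h : K) (δ : Fin k → ℤ) (ξ : Fin k → ℝ)
    (W : Pl F) : ℝ := q * lt y t W - W.ord (algebraMap K F h) - pa δ (xw t ξ W)

omit [Algebra ℂ K] [IsScalarTower ℂ K F] in
theorem adm (t0 : ∀ i, t i ≠ 0) (hs : ∀ j, s j ≠ 0) {W : Pl F} (hW : ∀ b ∈ R0 s a n t, b ∈ W.ring)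
    (j : Fin N) : W.ord (t (Fin.last k)) * ze a ξ n j ≤
      W.ord (algebraMap K F (s j)) + pa (a j) (xw t ξ W) := by
  have := gen_mem (sn s) (an a n) t j.castSucc
  rw [sn, an, Fin.snoc_castSucc, Fin.snoc_castSucc] at this
  have := (Int.cast_nonneg (R := ℝ) (Pl.ord_nonneg_of_mem _ (hW _ this))).trans_eq
    (ord_dr t0 W (hs j) _ _)
  rw [pa_xw, ze]
  push_cast at this
  linarith

variable {c : ℕ} {ε : ℝ} {y : Fin d → K} {T : Set (Pl K)} {D : Pl K → Fin k → ℤ}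
  {f : Fin c → MvPolynomial (Fin N) ℂ} {h g : K} {δ b : Fin k → ℤ}

/-- the lower bound -/
theorem low (hq : 0 < q) (hε : 0 < ε) (x : Ext K d t) (X : Dx q ε y T D s a f h g δ b)
    (hz : ∀ j, 0 ≤ ze a ξ n j) {W : Pl F} (hW : ∀ b ∈ R0 s a n t, b ∈ W.ring) :
    q * ε ≤ Lw q y t h δ ξ W ∨ (∀ φ : K, W.ord (algebraMap K F φ) = 0) ∧
      0 ≤ -pa δ (xw t ξ W) ∧ -pa δ (xw t ξ W) ≤ Lw q y t h δ ξ W := by
  have t0 := x.ind.ne_zero
  have q0 : (0 : ℝ) < q := Nat.cast_pos.2 hq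
  have e0 : (0 : ℝ) ≤ W.ord (t (Fin.last k)) :=
    Int.cast_nonneg (Pl.ord_nonneg_of_mem _ (hW _ (sig_mem s a n t)))
  have ad := fun j => (mul_nonneg e0 (hz j)).trans (adm t0 X.cox.ne hW j)
  obtain ⟨tr, w⟩ | ⟨Q, l, w⟩ := dwn K F d (k + 1) y t x X.fr W
  · have z : ∀ φ : K, W.ord (algebraMap K F φ) = 0 := fun φ => Trv.ord tr φ
    refine Or.inr ⟨z, neg_nonneg.2 (X.lw _ fun j => by simpa [z] using ad j).1, ?_⟩
    rw [Lw, z, Int.cast_zero]
    nlinarith [mul_nonneg q0.le w]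
  · have p : (1 : ℝ) ≤ W.ord (algebraMap K F Q.t) := by exact_mod_cast l.e_pos
    have p' : (0 : ℝ) < W.ord (algebraMap K F Q.t) := by linarith
    have pd : ∀ e : Fin k → ℤ, (pa e fun i => xw t ξ W i / W.ord (algebraMap K F Q.t)) =
        pa e (xw t ξ W) / W.ord (algebraMap K F Q.t) := fun e => by
      simp only [pa, Finset.sum_div, mul_div_assoc]
    have := X.hw Q (fun i => xw t ξ W i / W.ord (algebraMap K F Q.t)) fun j => by
      have := ad j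
      rw [l.ord, Int.cast_mul] at this
      rw [pd, add_div' _ _ _ p'.ne']
      exact div_nonneg (by linarith) p'.le
    rw [pd, le_sub_comm, div_le_iff₀ q0, add_div' _ _ _ p'.ne', div_le_iff₀ p'] at this
    refine Or.inl ?_
    rw [Lw, l.ord h, Int.cast_mul]
    nlinarith [mul_le_mul_of_nonneg_left w q0.le, mul_le_mul_of_nonneg_left p (mul_pos q0 hε).le]

end Vale.Agent.P283R.Hw
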