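import Vale.Agent.P283R.Hw.Bas
import Vale.Agent.P283R.Hw.Af0
import Vale.Agent.P283R.Hb.Gl
import Vale.Agent.P283R.Hz.Cm68

/-!
# P283R, block HW: the horizontal places
-/

open Set

noncomputable section

namespace Vale.Agent.P283R.Hw

open Vale.Agent.P287D Vale.Agent.P283R.Cx Vale.Agent.P283R.Cy Vale.Agent.P297Z
open Vale.Agent.P283R.Cx.Tpy (pa_add pa_smul)

variable {K F : Type} [Field K] [Algebra ℂ K] [Field F] [Algebra ℂ F] [Algebra K F]
  [IsScalarTower ℂ K F] {d k N q c : ℕ} {t : Fin (k + 1) → F} {s : Fin N → K}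
  {a : Fin N → Fin k → ℤ} {n : Fin N → ℤ} {ε : ℝ} {y : Fin d → K} {T : Set (Pl K)}
  {D : Pl K → Fin k → ℤ} {f : Fin c → MvPolynomial (Fin N) ℂ} {h₀ g : K} {e₀ b : Fin k → ℤ}

/-- the upper bound -/
theorem key (x : Ext K d t) (E : Eqv T D (kap y) h₀ e₀)
    (X : Dx q ε y T D s a f (h₀ ^ q * g) g ((q : ℤ) • e₀ + b) b) (ξ : Fin k → ℝ) {W : Pl F}
    (hW : ∀ b ∈ R0 s a n t, b ∈ W.ring) (h0 : 0 < W.ord (t (Fin.last k)))
    {A : Fin (d + k) → Fin (N + 1)}
    (hA : AlgebraicIndependent ℂ fun i => W.rd (hm t (sn s (A i)) (an a n (A i)))) :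
    ∃ (κ : Fin N → ℤ) (J : Finset (Fin N)), J.card = d + k ∧
      (∀ j, κ j ≤ if j ∈ J then (q : ℤ) else 0) ∧ dz a κ = -((q : ℤ) • e₀ + b) ∧
      Lw q y t (h₀ ^ q * g) ((q : ℤ) • e₀ + b) ξ W ≤
        W.ord (t (Fin.last k)) * pa κ (ze a ξ n) := by
  have t0 := x.ind.ne_zero
  have q0 : (0 : ℝ) ≤ q := Nat.cast_nonneg q
  obtain ⟨B, rfl⟩ : ∃ B : Fin (d + k) → Fin N, A = fun i => (B i).castSucc := by
    refine ⟨fun i => (A i).castPred fun h => hA.ne_zero i ?_, funext fun i => rfl⟩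
    rw [h, sn, an, Fin.snoc_last, Fin.snoc_last, hm_sig, zpow_one]
    exact (Cb.rd_eq_zero (hW _ (sig_mem s a n t))).2 (Cb.mx_iff.2 (.inr h0))
  simp only [sn, an, Fin.snoc_castSucc] at hA
  have inj : Function.Injective B := fun i j h => hA.injective (by simp only [h])
  obtain ⟨c₀, c1, c2⟩ := ldw x X.fr X.cox E n W hW h0 B hA
  obtain ⟨c₁, c3, c4⟩ := exists_mon X.gs X.g0 W
  have m0 : ∏ j, s j ^ c₁ j ≠ 0 := Finset.prod_ne_zero_iff.2 fun j _ => pow_ne_zero _ (X.cox.ne j)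
  have c5 := (Int.cast_nonneg (R := ℝ) (Pl.ord_nonneg_of_mem _ (hW _ (mon_R0 t0 s a n c₁)))).trans_eq
    (ord_dr t0 W m0 _ _)
  let J := Finset.univ.map ⟨B, inj⟩
  let ι : Fin N → ℤ := fun j => if j ∈ J then q else 0
  have hι : ∀ {M : Type} [AddCommGroup M] (z : Fin N → M),
      ∑ j, ι j • z j = (q : ℤ) • ∑ i, z (B i) := fun z => by
    simp only [ι, ite_smul, zero_smul, Finset.sum_ite_mem, Finset.univ_inter, J, Finset.sum_map,
      Finset.smul_sum, Function.Embedding.coeFn_mk]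
  have e : dz a (ι - (q : ℤ) • (fun j => (c₀ j : ℤ)) - fun j => (c₁ j : ℤ)) =
      -((q : ℤ) • e₀ + b) := by
    have : dz a ι = ∑ j, ι j • a j := Fintype.linearCombination_apply ..
    rw [map_sub, map_sub, map_smul, dz_nat, dz_nat, c1, c3, this, hι, smul_add]
    abel
  refine ⟨_, J, by simp [J], fun j => ?_, e, ?_⟩
  · have : 0 ≤ (q : ℤ) * c₀ j := by positivity
    change ι j - q * c₀ j - c₁ j ≤ ι j
    omega
  · have e2 : ∑ j, (ι - (q : ℤ) • (fun j => (c₀ j : ℤ)) - fun j => (c₁ j : ℤ) : Fin N → ℤ) j * n j =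
        q * (∑ i, n (B i) - ∑ j, c₀ j * n j) - ∑ j, c₁ j * n j := by
      have := hι n
      simp only [smul_eq_mul] at this
      simp only [Pi.sub_apply, Pi.smul_apply, smul_eq_mul, sub_mul, Finset.sum_sub_distrib, this,
        mul_assoc, ← Finset.mul_sum, mul_sub]
    rw [pa_ze, e, e2, Lw, pa_xw, ← neg_one_smul ℤ, pa_smul, pa_add, pa_smul, map_mul, map_pow,
      Pl.ord_mul _ (pow_ne_zero _ ((map_ne_zero _).2 E.1)) ((map_ne_zero _).2 X.g0), Pl.ord_pow]
    rw [ord_dr t0 W E.1] at c2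
    rw [c3] at c5
    have c6 := Int.cast_le (R := ℝ).2 c4
    have c7 := mul_le_mul_of_nonneg_left c2 q0
    push_cast at c5 c6 c7 ⊢
    linarith

open Hz in
theorem dx_of {F : Type} [Field F] [Algebra ℂ F] [Algebra K F] {t : Fin k → F} {u : Fin N → ℕ}
    {l : Fin k → ℤ} {Q : Pl K} (Z : Dz q ε y t T D s a u l h₀ g e₀ b Q) :
    ∃ (c : ℕ) (f : Fin c → MvPolynomial (Fin N) ℂ),
      Dx q ε y T D s a f (h₀ ^ q * g) g ((q : ℤ) • e₀ + b) b := by
  obtain ⟨c, f, ci⟩ := Cg.exists_rel (s := s) (a := a)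
  have p0 := pow_ne_zero q Z.can.1
  refine ⟨c, f, Z.ext.ff, Z.fr, Z.cox, ci, mul_ne_zero p0 Z.g0, Z.g0, Z.gs, fun P hP => ?_, Z.hw,
    Z.lw⟩
  rw [Z.can.2 P hP, Pl.ord_mul _ p0 Z.g0, Pl.ord_pow, add_dotProduct, smul_dotProduct, smul_eq_mul]
  push_cast
  ring

/-- **KAB** -/
theorem kab : Hb.KAB := by
  intro K _ _ _ _ _ _ _ d k N q ε y _ T D s a u l h₀ g e₀ b Q Z
  obtain ⟨c, f, X⟩ := dx_of Z
  obtain ⟨F, _, _, _, _, t, x⟩ := Cx.ext K d (k + 1) X.ff
  let n : Fin N → ℤ := fun j => if u j = 0 then 1 else 0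
  have z : ∀ j, ze a 0 n j = n j := fun j => by simp [ze, pa]
  have n0 : ∀ j, 0 ≤ n j ∧ n j ≤ 1 := fun j => by
    simp only [n]
    split_ifs <;> simp
  obtain ⟨W, w1, w2, A, hA⟩ := (exw F (d + k) (N + 1) _ (af0 K F d k N t T D s a n x X.cox)).2 _
    (sig_mem s a n t) (x.ind.ne_zero _) (sig_inv x.ind fun c hc =>
      (Finset.sum_eq_zero fun j _ => by
        simp only [n]
        split_ifs with h
        · simp [Z.gt.sup0 hc h]
        · simp).le)
  have hW : ∀ b ∈ R0 s a n t, b ∈ W.ring := fun b hb => by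
    induction hb using Algebra.adjoin_induction with
    | mem z hz => obtain ⟨j, rfl⟩ := hz; exact w1 j
    | algebraMap c => exact W.con c
    | add _ _ _ _ h k => exact add_mem h k
    | mul _ _ _ _ h k => exact mul_mem h k
  obtain ⟨κ, J, j1, j2, j3, j4⟩ := key x Z.can X 0 hW w2 hA
  have q0 : (0 : ℝ) < q := Nat.cast_pos.2 Z.q0
  have l0 := ((low Z.q0 Z.ε0 x X (ξ := 0) (fun j => by rw [z]; exact_mod_cast (n0 j).1) hW).elim
    (mul_pos q0 Z.ε0).le.trans fun h => h.2.1.trans h.2.2).trans j4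
  have l1 : 0 ≤ ∑ j, κ j * n j := by
    have := nonneg_of_mul_nonneg_right l0 (by exact_mod_cast w2)
    simp only [pa, z] at this
    exact_mod_cast this
  refine ⟨κ, fun j hj => ?_, (Fintype.linearCombination_apply ..).symm.trans j3⟩
  have i0 : ∀ j, 0 ≤ if j ∈ J then (q : ℤ) else 0 := fun j => by split_ifs <;> simp
  have := Finset.single_le_sum (f := fun j => (if j ∈ J then (q : ℤ) else 0) - κ j * n j)
    (fun j _ => by
      simp only [n]
      by_cases h : u j = 0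
      · simpa [h] using j2 j
      · simpa [h] using i0 j) (Finset.mem_univ j)
  have nj : n j = 1 := if_pos hj
  simp only [Finset.sum_sub_distrib, Finset.sum_ite_mem, Finset.univ_inter, Finset.sum_const, j1,
    nj, mul_one, nsmul_eq_mul] at this
  have k1 := i0 j
  have k2 : κ j ≤ q := (j2 j).trans (by split_ifs <;> simp)
  have k3 : (0 : ℤ) ≤ q * (d + k) := by positivity
  rw [abs_le]
  push_cast at this ⊢
  constructor <;> linarith

/-- **HMG** -/
theorem hmg_of (nrm : NRM) : Hb.HMG := by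
  intro K _ _ _ _ _ _ _ d k N q ε y _ T D s a u l h₀ g e₀ b Q Z η C κ P r v S m N₀ H
  obtain ⟨c, f, X⟩ := dx_of Z
  obtain ⟨F, _, _, _, _, t, x⟩ := Cx.ext K d (k + 1) X.ff
  have t0 := x.ind.ne_zero
  have r0 : (0 : ℝ) < r := Nat.cast_pos.2 S.D0
  have q0 : (0 : ℝ) < q := Nat.cast_pos.2 Z.q0
  have dv : ∀ m, dz a m = 0 → ∃ z : ℤ, ∑ j, v j * m j = r * z := fun m h =>
    S.dvd m ((Fintype.linearCombination_apply ..).symm.trans h)
  choose σ hσ using fun i => Hl.surj X.cox (Pi.single i 1)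
  choose n hn using fun j => dv (Pi.single j 1 - ∑ i, a j i • σ i) (by
    rw [map_sub, map_sum, dz_single, sub_eq_zero]
    simp only [map_smul, hσ]
    exact pi_eq_sum_univ' (a j))
  let ξ : Fin k → ℝ := fun i => (∑ j, v j * σ i j : ℤ) / r
  have z : ∀ j, ze a ξ n j = v j / r := fun j => by
    have : (v j : ℤ) - ∑ i, a j i * ∑ l, v l * σ i l = r * n j := by
      rw [← hn j]
      simp only [Pi.sub_apply, mul_sub, Finset.sum_sub_distrib, Finset.sum_apply, Pi.smul_apply,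
        smul_eq_mul, Finset.mul_sum, Pi.single_apply, mul_ite, mul_one, mul_zero,
        Finset.sum_ite_eq', Finset.mem_univ, if_true, mul_left_comm]
      rw [Finset.sum_comm]
    have := congrArg (Int.cast (R := ℝ)) this
    rw [Int.cast_sub, Int.cast_sum, Int.cast_mul, Int.cast_natCast, Int.cast_natCast] at this
    simp only [ze, pa, ξ, ← mul_div_assoc, ← Finset.sum_div, ← Int.cast_mul]
    rw [eq_div_iff r0.ne', add_mul, div_mul_cancel₀ _ r0.ne']
    linarith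
  have z0 : ∀ j, 0 ≤ ze a ξ n j := fun j => by rw [z]; positivity
  have z1 : ∑ j, ze a ξ n j < η := by
    simp only [z]
    rw [← Finset.sum_div, div_lt_iff₀ r0]
    exact S.lt
  have pz : ∀ κ : Fin N → ℤ, r * pa κ (ze a ξ n) = (∑ j, κ j * v j : ℤ) := fun κ => by
    simp only [pa, z, ← mul_div_assoc, ← Finset.sum_div]
    rw [mul_div_cancel_left₀ _ r0.ne']
    push_cast
    rfl
  obtain ⟨nr, one⟩ := nrm K F d k N c q ε y t T D s a f _ g _ b ξ n r Z.q0 Z.ε0 x X S.D0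
    (fun i => ⟨_, mul_div_cancel₀ _ r0.ne'⟩) z0 (z1.trans_le (P.h2.trans
      (one_div_le_one_div_of_le two_pos (by linarith [Nat.cast_nonneg (α := ℝ) N]))))
  have af := af0 K F d k N t T D s a n x X.cox
  have m0 : ∏ j, s j ^ m j ≠ 0 := Finset.prod_ne_zero_iff.2 fun j _ => pow_ne_zero _ (X.cox.ne j)
  have mem : hm t (∏ j, s j ^ m j) (dn (dg a m) (-⌈(N₀ : ℝ) / r - pa (dg a m) ξ⌉)) ∈ R0 s a n t := by
    refine (hrt _ F _ af nr).2.1 _ fun W w => Cb.mem_ord (Int.cast_nonneg_iff (R := ℝ).1 ?_)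
    have hW : ∀ b ∈ R0 s a n t, b ∈ W.ring := fun b hb => (w.choose_spec.1 ⟨b, hb⟩).1
    rw [ord_dr t0 W m0]
    obtain h | h := (Pl.ord_nonneg_of_mem _ (hW _ (sig_mem s a n t))).eq_or_lt
    · have := (Int.cast_nonneg (R := ℝ) (Pl.ord_nonneg_of_mem _
        (hW _ (mon_R0 t0 s a n m)))).trans_eq (ord_dr t0 W m0 _ _)
      rwa [← h, Int.cast_zero, mul_zero] at this ⊢
    obtain ⟨A, hA⟩ := (exw F (d + k) (N + 1) _ af).1 W w
    obtain ⟨κ', J, -, j2, j3, j4⟩ := key x Z.can X ξ hW h hA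
    have e := one W w h
    have u1 : pa κ' (ze a ξ n) ≤ q * ∑ j, ze a ξ n j := by
      rw [Finset.mul_sum]
      exact Finset.sum_le_sum fun j _ => mul_le_mul_of_nonneg_right
        (by exact_mod_cast (j2 j).trans (by split_ifs <;> simp)) (z0 j)
    have u2 : -pa κ (ze a ξ n) ≤ C * ∑ j, ze a ξ n j := by
      rw [Finset.mul_sum, pa, ← Finset.sum_neg_distrib]
      refine Finset.sum_le_sum fun j _ => ?_
      by_cases hj : u j = 0
      · rw [← neg_mul]
        exact mul_le_mul_of_nonneg_right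
          (by exact_mod_cast (neg_le_abs _).trans (P.bd j hj)) (z0 j)
      · simp [z, Nat.eq_zero_of_not_pos (mt (S.pos j).1 hj)]
    have u3 : pa κ' (ze a ξ n) ≤ pa κ (ze a ξ n) := by
      have k1 : dz a κ = _ := (Fintype.linearCombination_apply ..).trans P.eq
      have k2 := P.h3
      have k3 := mul_lt_mul_of_pos_left z1 (show (0 : ℝ) < q + C by positivity)
      have : pa κ' (ze a ξ n) < pa κ (ze a ξ n) + 1 := by linarith
      rw [pa_ze, pa_ze, j3, k1] at this ⊢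
      rw [add_assoc, add_lt_add_iff_left] at this
      exact add_le_add_right (Int.cast_le.2 (Int.lt_add_one_iff.1 (by exact_mod_cast this))) _
    rw [e, Int.cast_one, one_mul] at j4
    obtain l0 | ⟨l1, -, l2⟩ := low Z.q0 Z.ε0 x X z0 hW
    · have := mul_lt_mul_of_pos_left (z1.trans_le P.h1) q0
      linarith
    have pr : ∀ e : Fin k → ℤ, (pa e fun i => r * xw t ξ W i) = r * pa e (xw t ξ W) := fun e => by
      simp only [pa, Finset.mul_sum, mul_left_comm]
    have := H (fun i => r * xw t ξ W i) (fun j => by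
      have := adm (ξ := ξ) t0 X.cox.ne hW j
      rw [e, l1, z, Int.cast_one, one_mul, Int.cast_zero, zero_add, div_le_iff₀' r0] at this
      rwa [pr]) (by
        rw [pr, ← pz, ← mul_neg]
        exact mul_le_mul_of_nonneg_left (l2.trans (j4.trans u3)) r0.le)
    rw [pr, ← div_le_iff₀' r0, pa_xw, e, Int.cast_one, one_mul, ← sub_le_iff_le_add] at this
    have p : (pa (dg a m) fun i => W.ord (t i.castSucc)) =
        (∑ i, dg a m i * W.ord (t i.castSucc) : ℤ) := by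
      rw [pa]
      push_cast
      rfl
    rw [p, ← Int.ceil_le] at this
    rw [l1, e, p, ← Int.cast_mul, ← Int.cast_add, ← Int.cast_add, Int.cast_nonneg_iff]
    omega
  obtain ⟨m', c1, c2, c3⟩ := R0_mon x.ind Q m0 mem
  refine ⟨1, m', one_pos, by simp [c1], ?_, by simpa only [Hz.ord_pw X.cox.ne, Nat.cast_one,
    one_mul] using c3⟩
  have k1 := pz fun j => m' j
  rw [pa_ze, dz_nat, c1] at k1
  have k2 := (Int.ceil_le.1 c2)
  rw [sub_le_iff_le_add', div_le_iff₀' r0, k1] at k2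
  rw [Nat.cast_one, one_mul]
  simpa only [mul_comm] using Int.cast_le.1 k2

theorem hg_of (nrm : NRM) : Bh.HG := Hb.hg_of Hz.cmb kab (hmg_of nrm)

end Vale.Agent.P283R.Hw
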