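import Vale.Agent.P283R.Bh.Fib

/-!
# P283R, block HW: the horizontal places for any ring of sections (statements)
-/

open Set

noncomputable section

namespace Vale.Agent.P283R.Hw

open Vale.Agent.P287D Vale.Agent.P283R.Cx Vale.Agent.P283R.Cy

section defs

variable {K F : Type} [Field K] [Field F] [Algebra ℂ F] [Algebra K F] {k N : ℕ}

/-- the generators of the Rees ring -/
def sn (s : Fin N → K) : Fin (N + 1) → K := Fin.snoc s 1

/-- a degree -/
def dn (e : Fin k → ℤ) (m : ℤ) : Fin (k + 1) → ℤ := Fin.snoc e m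

/-- the degrees of the generators of the Rees ring -/
def an (a : Fin N → Fin k → ℤ) (n : Fin N → ℤ) : Fin (N + 1) → Fin (k + 1) → ℤ :=
  Fin.snoc (fun j => dn (a j) (-n j)) (dn 0 1)

/-- the Rees ring `ℂ[z j * σ ^ (- n j), σ]`, where `σ` is the last variable -/
def R0 (s : Fin N → K) (a : Fin N → Fin k → ℤ) (n : Fin N → ℤ) (t : Fin (k + 1) → F) :
    Subalgebra ℂ F := Rg (sn s) (an a n) t

/-- the weights -/
def ze (a : Fin N → Fin k → ℤ) (ξ : Fin k → ℝ) (n : Fin N → ℤ) (j : Fin N) : ℝ :=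
  pa (a j) ξ + n j

end defs

/-- **NRM**: the Rees ring of small weights is normal with reduced special fibre -/
def NRM : Prop := ∀ (K F : Type) [Field K] [Algebra ℂ K] [Field F] [Algebra ℂ F] [Algebra K F]
  [IsScalarTower ℂ K F] (d k N c q : ℕ) (ε : ℝ) (y : Fin d → K) (t : Fin (k + 1) → F)
  (T : Set (Pl K)) (D : Pl K → Fin k → ℤ) (s : Fin N → K) (a : Fin N → Fin k → ℤ)
  (f : Fin c → MvPolynomial (Fin N) ℂ) (h g : K) (δ b : Fin k → ℤ) (ξ : Fin k → ℝ)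
  (n : Fin N → ℤ) (r : ℕ), 0 < q → 0 < ε → Ext K d t → Dx q ε y T D s a f h g δ b → 0 < r →
    (∀ i, ∃ z : ℤ, r * ξ i = z) → (∀ j, 0 ≤ ze a ξ n j) → ∑ j, ze a ξ n j < 1 / 2 →
    IsIntegrallyClosed (R0 s a n t) ∧
      ∀ W, PD (R0 s a n t) W → 0 < W.ord (t (Fin.last k)) → W.ord (t (Fin.last k)) = 1

/-- **AF0**: the Rees ring is an affine model -/
def AF0 : Prop := ∀ (K F : Type) [Field K] [Algebra ℂ K] [Field F] [Algebra ℂ F] [Algebra K F]
  [IsScalarTower ℂ K F] (d k N : ℕ) (t : Fin (k + 1) → F) (T : Set (Pl K))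
  (D : Pl K → Fin k → ℤ) (s : Fin N → K) (a : Fin N → Fin k → ℤ) (n : Fin N → ℤ), Ext K d t →
    Cox T D s a → Aff (d + k + 1) (R0 s a n t)

/-- **EXW**: places at which enough generators have independent residues -/
def EXW : Prop := ∀ (F : Type) [Field F] [Algebra ℂ F] (m N : ℕ) (x : Fin N → F),
  Aff (m + 1) (Algebra.adjoin ℂ (range x)) →
    (∀ W, PD (Algebra.adjoin ℂ (range x)) W →
      ∃ A : Fin m → Fin N, AlgebraicIndependent ℂ fun i => W.rd (x (A i))) ∧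
    ∀ σ ∈ Algebra.adjoin ℂ (range x), σ ≠ 0 → σ⁻¹ ∉ Algebra.adjoin ℂ (range x) →
      ∃ W : Pl F, (∀ j, x j ∈ W.ring) ∧ 0 < W.ord σ ∧
        ∃ A : Fin m → Fin N, AlgebraicIndependent ℂ fun i => W.rd (x (A i))

/-- **KPW**: the log discrepancy with respect to such a frame -/
def KPW : Prop := ∀ (F : Type) [Field F] [Algebra ℂ F] (m : ℕ) (W : Pl F) (σ : F) (v : Fin m → F),
  FF F (m + 1) → 0 < W.ord σ → (∀ i, v i ∈ W.ring) →
    (AlgebraicIndependent ℂ fun i => W.rd (v i)) →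
    Frm (Fin.cons σ v : Fin (m + 1) → F) ∧ 1 + kap (Fin.cons σ v : Fin (m + 1) → F) W = W.ord σ

/-- **JAC**: frames of homogeneous elements -/
def JAC : Prop := ForX fun K F _ _ _ _ _ d k y t => ∀ (φ : Fin (d + k) → K)
  (e : Fin (d + k) → Fin k → ℤ), (∀ i, φ i ≠ 0) → Frm (fun i => hm t (φ i) (e i)) →
    ∃ ψ : K, ψ ≠ 0 ∧ ∀ V : Pl F,
      1 + kap (fun i => hm t (φ i) (e i)) V = lt y t V + V.ord (hm t ψ (∑ i, e i))

end Vale.Agent.P283R.Hw
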